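import Vale.Agent.P146.Defs
import Vale.Agent.P146.H605.Defs
import Vale.Agent.P146.H196.UDefs
import Vale.Agent.P146.H558.S3Main
import Vale.Agent.P146.H605S.EndJ
import Vale.Agent.P146.H605S.UnionL

/-!
# P146: order and law of the fluctuations of the Sherrington-Kirkpatrick free energy below the
critical temperature

For every `b > 1` the fluctuations of `F_n(b)` are of the order `n ^ (1 / 6)` predicted in physics,
up to powers of `log n`: two-sided bounds of the variance, of all moments, of the exponential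
moments and of the right tail, fluctuations to both sides, small balls, disorder chaos, the
asymmetry of the tails and the shape of the limit laws.
-/

open MeasureTheory ProbabilityTheory Filter Topology

namespace Vale.Agent.Results.P146.FluctOrder

open Vale.Agent.P146 Vale.Agent.P146.H605 Vale.Agent.P146.H196

theorem result (b : ℝ) (hb : 1 < b) :
    (∃ C c : ℝ, 0 < C ∧ 0 < c ∧
      (∀ᶠ n : ℕ in atTop,
        -- the variance
        (n : ℝ) ^ (1 / 3 : ℝ) / Real.log n ^ C ≤ Var[freeEnergy n b; disorder n] ∧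
        Var[freeEnergy n b; disorder n] ≤ (n : ℝ) ^ (1 / 3 : ℝ) * Real.log n ^ C ∧
        -- both sides, with constant probability
        1 / 10 ^ 10 ≤ (disorder n).real {g | meanF n b + (n : ℝ) ^ (1 / 6 : ℝ) / Real.log n ^ C ≤
          freeEnergy n b g} ∧
        1 / 10 ^ 10 ≤ (disorder n).real {g | freeEnergy n b g ≤
          meanF n b - (n : ℝ) ^ (1 / 6 : ℝ) / Real.log n ^ C} ∧
        -- small balls and large fluctuations
        (∀ u : ℝ, 0 ≤ u →
          (∀ y : ℝ, (disorder n).real {g | |freeEnergy n b g - y| ≤ u} ≤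
            (1 + u) * Real.log n ^ C / (n : ℝ) ^ (1 / 6 : ℝ)) ∧
          (disorder n).real {g | u * ((n : ℝ) ^ (1 / 6 : ℝ) * Real.log n ^ C) ≤
            |freeEnergy n b g - meanF n b|} ≤ 7 * Real.exp (-u)) ∧
        -- the exponential moments
        (∀ x : ℝ, Real.log n ^ C / (n : ℝ) ^ (1 / 6 : ℝ) ≤ x → x ≤ 1 →
          n * x ^ 6 / Real.log n ^ C ≤
            Real.log (∫ g, Real.exp (x * (freeEnergy n b g - meanF n b)) ∂(disorder n)) ∧
          Real.log (∫ g, Real.exp (x * (freeEnergy n b g - meanF n b)) ∂(disorder n)) ≤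
            C * (n * x ^ 6)) ∧
        -- the right tail
        (∀ s : ℝ, Real.log n ^ C / (n : ℝ) ^ (5 / 6 : ℝ) ≤ s → s ≤ c →
          Real.exp (-(Real.log n ^ C * (n * s ^ (6 / 5 : ℝ)))) ≤
            (disorder n).real {g | meanF n b + n * s ≤ freeEnergy n b g} ∧
          (disorder n).real {g | meanF n b + n * s ≤ freeEnergy n b g} ≤
            Real.exp (-(c * (n * s ^ (6 / 5 : ℝ))))) ∧
        -- asymmetry
        (∀ u : ℝ, Real.log n ^ C ≤ u → u ≤ (n : ℝ) ^ (5 / 6 : ℝ) / Real.log n ^ C →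
          Real.exp (-(Real.log n ^ C * u ^ (6 / 5 : ℝ))) ≤
            (disorder n).real {g | meanF n b + u * sdF n b ≤ freeEnergy n b g} ∧
          Real.exp (u ^ 2 / 4) * (disorder n).real {g | freeEnergy n b g ≤
            meanF n b - u * sdF n b} ≤
              (disorder n).real {g | meanF n b + u * sdF n b ≤ freeEnergy n b g}) ∧
        -- chaos
        (∃ t : ℝ, 0 ≤ t ∧ t < 1 ∧
          (n : ℝ) ^ (1 / 3 : ℝ) / Real.log n ^ C ≤ n * (1 - t) * crossOverlap n b t) ∧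
        (∀ t : ℝ, 0 ≤ t → t < 1 → n * (1 - t) * crossOverlap n b t ≤
          (n : ℝ) ^ (1 / 3 : ℝ) * Real.log n ^ C)) ∧
      -- all moments
      (∀ p : ℝ, 0 < p → ∀ᶠ n : ℕ in atTop,
        (∀ y : ℝ, ((n : ℝ) ^ (1 / 6 : ℝ) / Real.log n ^ C) ^ p ≤
          ∫ g, |freeEnergy n b g - y| ^ p ∂(disorder n)) ∧
        ((n : ℝ) ^ (1 / 6 : ℝ) / Real.log n ^ C) ^ p ≤
          ∫ g, (max (freeEnergy n b g - meanF n b) 0) ^ p ∂(disorder n) ∧
        ((n : ℝ) ^ (1 / 6 : ℝ) / Real.log n ^ C) ^ p ≤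
          ∫ g, (max (meanF n b - freeEnergy n b g) 0) ^ p ∂(disorder n) ∧
        ∫ g, |freeEnergy n b g - meanF n b| ^ p ∂(disorder n) ≤
          ((n : ℝ) ^ (1 / 6 : ℝ) * Real.log n ^ C) ^ p)) ∧
    -- the limit laws of `(F_n - E F_n) / (Var F_n)^(1/2)`
    (∀ N : ℕ → ℕ, Tendsto N atTop atTop →
      ∃ (φ : ℕ → ℕ) (p : ℝ → ℝ), StrictMono φ ∧ (∀ x, 0 ≤ p x ∧ p x ≤ 145) ∧
      (∀ s t : ℝ, 0 < s → 0 < t → s + t = 1 → ∀ x y : ℝ,
        p x ^ s * p y ^ t ≤ p (s * x + t * y)) ∧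
      ∫ x, p x = 1 ∧ ∫ x, x * p x = 0 ∧ ∫ x, x ^ 2 * p x = 1 ∧
      (Integrable (fun x => x ^ 3 * p x) ∧ 0 ≤ ∫ x, x ^ 3 * p x) ∧
      (∀ u : ℝ, 0 ≤ u → ∫ x in Set.Iic (-u), p x ≤ Real.exp (-(u ^ 2 / 2))) ∧
      (∀ u : ℝ, 0 ≤ u → Integrable (fun x => Real.exp (-(u * x)) * p x) ∧
        ∫ x, Real.exp (-(u * x)) * p x ≤ Real.exp (u ^ 2 / 2)) ∧
      (∀ u : ℝ, 0 ≤ u → u < 1 / 36 → Integrable (fun x => Real.exp (u * x) * p x) ∧
        Real.exp (u ^ 2 / 2) ≤ ∫ x, Real.exp (u * x) * p x ∧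
        ∫ x, Real.exp (u * x) * p x ≤ 7 / 2) ∧
      ∀ f : ℝ → ℝ, Continuous f → (∃ C, ∀ x, |f x| ≤ C) →
        Tendsto (fun k => ∫ g, f ((freeEnergy (N (φ k)) b g - meanF (N (φ k)) b) /
          sdF (N (φ k)) b) ∂(disorder (N (φ k)))) atTop (𝓝 (∫ x, f x * p x))) ∧
    -- comparison with the Gaussian law of the same variance, for every `n`
    (∀ n : ℕ, 2 ≤ n →
      (∀ x : ℝ, 0 ≤ x →
        ∫ g, Real.exp (-(x * (freeEnergy n b g - meanF n b))) ∂(disorder n) ≤
          Real.exp (x ^ 2 / 2 * Var[freeEnergy n b; disorder n]) ∧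
        Real.exp (x ^ 2 / 2 * Var[freeEnergy n b; disorder n]) ≤
          ∫ g, Real.exp (x * (freeEnergy n b g - meanF n b)) ∂(disorder n)) ∧
      0 ≤ ∫ g, (freeEnergy n b g - meanF n b) ^ 3 ∂(disorder n)) := by
  obtain ⟨G, hG, h⟩ := S3.joint_all hb (b₁ := 1 / 1000) (by norm_num) (by norm_num)
  obtain ⟨C₀, hK⟩ := H605S.klog_of_joint hb (by norm_num) h
  exact H605S.unionL hb (by norm_num) (by norm_num) hK

end Vale.Agent.Results.P146.FluctOrder
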